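import Vale.Agent.P113.R2.Defs

/-! # P113: the halting set of the table-coded machines is recursively enumerable -/

namespace Vale.Agent.P113.R2.H796

open Vale.Agent.P113

/-- list-coded configurations: state, left half-tape, right half-tape (with the head cell) -/
abbrev LC : Type := ℕ × List ℕ × List ℕ

/-- writing and moving on list-coded tapes -/
def lmove (s : ℕ) (m : Move) (L R : List ℕ) : List ℕ × List ℕ :=
  if m = .left then (L.tail, L.headI :: s :: R.tail)
  else if m = .right then (s :: L, R.tail) else (L, s :: R.tail)

/-- one step on list-coded configurations -/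
def lstep (M : Machine) (c : LC) : LC :=
  if c.1 ∈ M.halting then c
  else match M.table.lookup (c.1, c.2.2.headI) with
    | none => c
    | some e => (e.1, lmove e.2.1 e.2.2 c.2.1 c.2.2)

theorem primrec_halting : Primrec fun M : Machine => M.halting :=
  (Primrec.fst.comp (Primrec.snd.comp (Primrec.of_equiv (e := Machine.equiv)))).of_eq
    fun _ => rfl

theorem primrec_table : Primrec fun M : Machine => M.table :=
  (Primrec.snd.comp (Primrec.snd.comp (Primrec.of_equiv (e := Machine.equiv)))).of_eq
    fun _ => rfl

theorem primrec_start : Primrec fun M : Machine => M.start :=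
  (Primrec.fst.comp (Primrec.of_equiv (e := Machine.equiv))).of_eq fun _ => rfl

theorem primrecRel_mem : PrimrecRel fun (l : List ℕ) (a : ℕ) => a ∈ l :=
  (PrimrecRel.exists_mem_list (R := fun a b : ℕ => a = b) Primrec.eq).of_eq fun l a => by
    simp

theorem primrec_lmove : Primrec fun p : (ℕ × Move) × List ℕ × List ℕ =>
    lmove p.1.1 p.1.2 p.2.1 p.2.2 := by
  have hs : Primrec fun p : (ℕ × Move) × List ℕ × List ℕ => p.1.1 := Primrec.fst.comp Primrec.fst
  have hm : Primrec fun p : (ℕ × Move) × List ℕ × List ℕ => p.1.2 := Primrec.snd.comp Primrec.fst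
  have hL : Primrec fun p : (ℕ × Move) × List ℕ × List ℕ => p.2.1 := Primrec.fst.comp Primrec.snd
  have hR : Primrec fun p : (ℕ × Move) × List ℕ × List ℕ => p.2.2 := Primrec.snd.comp Primrec.snd
  unfold lmove
  refine Primrec.ite (Primrec.eq.comp hm (Primrec.const _)) ?_
    (Primrec.ite (Primrec.eq.comp hm (Primrec.const _)) ?_ ?_)
  · exact Primrec.pair (Primrec.list_tail.comp hL)
      (Primrec.list_cons.comp (Primrec.list_headI.comp hL)
        (Primrec.list_cons.comp hs (Primrec.list_tail.comp hR)))
  · exact Primrec.pair (Primrec.list_cons.comp hs hL) (Primrec.list_tail.comp hR)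
  · exact Primrec.pair hL (Primrec.list_cons.comp hs (Primrec.list_tail.comp hR))

theorem beq_inst : (instBEqProd : BEq (ℕ × ℕ)) = instBEqOfDecidableEq :=
  lawful_beq_subsingleton _ _

theorem primrec_lookup : Primrec₂ fun (k : ℕ × ℕ) (l : List ((ℕ × ℕ) × ℕ × ℕ × Move)) =>
    l.lookup k := by
  rw [beq_inst]
  exact Primrec.listLookup

theorem primrec_upd : Primrec₂ fun (c : LC) (e : ℕ × ℕ × Move) =>
    ((e.1, lmove e.2.1 e.2.2 c.2.1 c.2.2) : LC) := by
  have he : Primrec fun p : LC × (ℕ × ℕ × Move) => p.2 := Primrec.snd
  have hc : Primrec fun p : LC × (ℕ × ℕ × Move) => p.1.2 := Primrec.snd.comp Primrec.fst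
  have h1 : Primrec fun p : LC × (ℕ × ℕ × Move) => (p.2.2, p.1.2) :=
    Primrec.pair (Primrec.snd.comp he) hc
  exact Primrec.pair (Primrec.fst.comp he) (primrec_lmove.comp h1)

theorem primrec_lstep : Primrec₂ lstep := by
  unfold Primrec₂ lstep
  have hM : Primrec fun p : Machine × LC => p.1 := Primrec.fst
  have hc : Primrec fun p : Machine × LC => p.2 := Primrec.snd
  refine Primrec.ite (primrecRel_mem.comp (primrec_halting.comp hM) (Primrec.fst.comp hc)) hc ?_
  have hk : Primrec fun p : Machine × LC => ((p.2.1, p.2.2.2.headI) : ℕ × ℕ) :=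
    Primrec.pair (Primrec.fst.comp hc)
      (Primrec.list_headI.comp (Primrec.snd.comp (Primrec.snd.comp hc)))
  have hl : Primrec fun p : Machine × LC => p.1.table.lookup (p.2.1, p.2.2.2.headI) :=
    primrec_lookup.comp hk (primrec_table.comp hM)
  have h1 : Primrec₂ fun (p : Machine × LC) (e : ℕ × ℕ × Move) =>
      ((e.1, lmove e.2.1 e.2.2 p.2.2.1 p.2.2.2) : LC) :=
    primrec_upd.comp (Primrec.snd.comp Primrec.fst) Primrec.snd
  exact (Primrec.option_casesOn hl hc h1).of_eq fun p => by
    rcases p.1.table.lookup (p.2.1, p.2.2.2.headI) with - | e <;> rfl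

/-- a configuration is coded by a list-coded configuration -/
structure Codes (c : Config) (l : LC) : Prop where
  state : c.state = l.1
  right : ∀ i : ℕ, c.tape (c.pos + i) = l.2.2.getD i 0
  left : ∀ i : ℕ, c.tape (c.pos - 1 - i) = l.2.1.getD i 0

theorem headI_eq (l : List ℕ) : l.headI = l.getD 0 0 := by cases l <;> rfl

theorem tail_getD (l : List ℕ) (i : ℕ) : l.tail.getD i 0 = l.getD (i + 1) 0 := by
  cases l <;> simp

theorem codes_step (M : Machine) {c : Config} {l : LC} (h : Codes c l) :
    Codes (M.step c) (lstep M l) := by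
  obtain ⟨hs, hr, hl⟩ := h
  have h0 : c.tape c.pos = l.2.2.headI := by
    rw [headI_eq, ← hr 0]; simp
  unfold Machine.step lstep
  rw [← hs]
  split_ifs with hh
  · exact ⟨hs, hr, hl⟩
  · rw [h0]
    rcases M.table.lookup (c.state, l.2.2.headI) with - | ⟨q, s, m⟩
    · exact ⟨hs, hr, hl⟩
    · have hup : ∀ j : ℤ, j ≠ c.pos → Function.update c.tape c.pos s j = c.tape j :=
        fun j hj => Function.update_of_ne hj _ _
      refine ⟨rfl, fun i => ?_, fun i => ?_⟩
      · cases m with
        | left =>
          simp only [lmove, Move.shift, if_true]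
          rcases i with - | i
          · rw [hup _ (by push_cast; omega), List.getD_cons_zero, headI_eq, ← hl 0]
            congr 1
          · rcases i with - | i
            · have e1 : c.pos + -1 + ((0 + 1 : ℕ) : ℤ) = c.pos := by push_cast; ring
              rw [e1, Function.update_self]; rfl
            · rw [hup _ (by push_cast; omega), List.getD_cons_succ, List.getD_cons_succ,
                tail_getD, ← hr (i + 1)]
              congr 1; push_cast; omega
        | stay =>
          simp only [lmove, Move.shift]
          rcases i with - | i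
          · have e1 : c.pos + 0 + ((0 : ℕ) : ℤ) = c.pos := by push_cast; ring
            rw [e1, Function.update_self]; rfl
          · rw [hup _ (by push_cast; omega)]
            change _ = (s :: l.2.2.tail).getD (i + 1) 0
            rw [List.getD_cons_succ, tail_getD, ← hr (i + 1)]
            congr 1; push_cast; omega
        | right =>
          simp only [lmove, Move.shift]
          rw [hup _ (by omega)]
          change _ = l.2.2.tail.getD i 0
          rw [tail_getD, ← hr (i + 1)]
          congr 1; push_cast; omega
      · cases m with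
        | left =>
          simp only [lmove, Move.shift, if_true]
          rw [hup _ (by omega), tail_getD, ← hl (i + 1)]
          congr 1; push_cast; omega
        | stay =>
          simp only [lmove, Move.shift]
          rw [hup _ (by omega)]
          change _ = l.2.1.getD i 0
          rw [← hl i]
          congr 1; omega
        | right =>
          simp only [lmove, Move.shift]
          change _ = (s :: l.2.1).getD i 0
          rcases i with - | i
          · have e1 : c.pos + 1 - 1 - ((0 : ℕ) : ℤ) = c.pos := by push_cast; ring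
            rw [e1, Function.update_self]; rfl
          · rw [hup _ (by push_cast; omega), List.getD_cons_succ, ← hl i]
            congr 1; push_cast; omega

theorem codes_init (M : Machine) (w : List ℕ) : Codes (M.init w) (M.start, [], w) := by
  refine ⟨rfl, fun i => ?_, fun i => ?_⟩
  · simp [Machine.init]
  · have : ¬ (0 : ℤ) ≤ 0 - 1 - (i : ℤ) := by omega
    simp only [Machine.init, if_neg this]
    simp

theorem codes_iter (M : Machine) (w : List ℕ) (n : ℕ) :
    Codes (M.step^[n] (M.init w)) ((lstep M)^[n] (M.start, [], w)) := by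
  induction n with
  | zero => exact codes_init M w
  | succ n ih =>
    rw [Function.iterate_succ_apply', Function.iterate_succ_apply']
    exact codes_step M ih

theorem haltsOn_iff (M : Machine) (w : List ℕ) :
    M.HaltsOn w ↔ ∃ n, ((lstep M)^[n] (M.start, [], w)).1 ∈ M.halting := by
  unfold Machine.HaltsOn
  exact exists_congr fun n => by rw [(codes_iter M w n).state]

/-- The halting set is recursively enumerable. -/
theorem haltsOn_re : REPred fun p : Machine × List ℕ => p.1.HaltsOn p.2 := by
  have h1 : Primrec fun q : (Machine × List ℕ) × ℕ =>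
      ((lstep q.1.1)^[q.2] (q.1.1.start, [], q.1.2)) := by
    refine Primrec.nat_iterate (f := fun q : (Machine × List ℕ) × ℕ => q.2)
      (g := fun q : (Machine × List ℕ) × ℕ => ((q.1.1.start, [], q.1.2) : LC))
      (h := fun q c => lstep q.1.1 c) Primrec.snd ?_ ?_
    · exact Primrec.pair (primrec_start.comp (Primrec.fst.comp Primrec.fst))
        (Primrec.pair (Primrec.const _) (Primrec.snd.comp Primrec.fst))
    · exact primrec_lstep.comp (Primrec.fst.comp (Primrec.fst.comp Primrec.fst)) Primrec.snd
  have h2 : PrimrecPred fun q : (Machine × List ℕ) × ℕ =>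
      ((lstep q.1.1)^[q.2] (q.1.1.start, [], q.1.2)).1 ∈ q.1.1.halting :=
    primrecRel_mem.comp (primrec_halting.comp (Primrec.fst.comp Primrec.fst))
      (Primrec.fst.comp h1)
  obtain ⟨_, h3⟩ := h2
  have h4 : Partrec₂ fun (p : Machine × List ℕ) =>
      ((fun n => decide (((lstep p.1)^[n] (p.1.start, [], p.2)).1 ∈ p.1.halting) : ℕ → Bool) :
        ℕ →. Bool) := by
    refine h3.to_comp.partrec.of_eq fun q => ?_
    simp only [PFun.coe_val]
    congr
  refine (Partrec.rfind h4).dom_re.of_eq fun p => ?_
  rw [haltsOn_iff, Nat.rfind_dom]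
  constructor
  · rintro ⟨n, hn, -⟩
    exact ⟨n, by simpa using hn⟩
  · rintro ⟨n, hn⟩
    exact ⟨n, by simpa using hn, fun _ => trivial⟩

end Vale.Agent.P113.R2.H796
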