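import Vale.Agent.P113.R2.H796.Sys
import Vale.Agent.P113.R2.H796.Halt
import Vale.Agent.P113.R2.H928.Chain

/-! # P113: the discrete part -/

namespace Vale.Agent.P113.R2.H796

open Vale.Agent.P113 Turing

/-- the halting predicate on codes -/
def HP (m : ℕ) : Prop :=
  ∃ z : Machine × List ℕ, z ∈ (Encodable.decode m : Option (Machine × List ℕ)) ∧ z.1.HaltsOn z.2

theorem hp_encode (M : Machine) (w : List ℕ) : HP (Encodable.encode (M, w)) ↔ M.HaltsOn w := by
  unfold HP
  constructor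
  · rintro ⟨z, hz, h⟩
    rw [Encodable.encodek] at hz
    cases hz
    exact h
  · intro h
    exact ⟨(M, w), Encodable.encodek _, h⟩

theorem hp_re : REPred HP := by
  have h1 : Partrec fun m : ℕ =>
      ((Encodable.decode m : Option (Machine × List ℕ)) : Part (Machine × List ℕ)) :=
    Computable.decode.ofOption
  have h2 : Partrec₂ fun (_ : ℕ) (z : Machine × List ℕ) =>
      Part.assert (z.1.HaltsOn z.2) fun _ => Part.some () :=
    Partrec.comp haltsOn_re Computable.snd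
  refine (h1.bind h2).dom_re.of_eq fun m => ?_
  unfold HP
  rw [Part.dom_iff_mem]
  constructor
  · rintro ⟨u, hu⟩
    rw [Part.mem_bind_iff] at hu
    obtain ⟨z, hz, h3⟩ := hu
    rw [Part.mem_assert_iff] at h3
    obtain ⟨h4, -⟩ := h3
    exact ⟨z, by simpa using hz, h4⟩
  · rintro ⟨z, hz, h4⟩
    refine ⟨(), ?_⟩
    rw [Part.mem_bind_iff]
    refine ⟨z, by simpa using hz, ?_⟩
    rw [Part.mem_assert_iff]
    exact ⟨h4, Part.mem_some _⟩

theorem discrete_hp : Discrete HP := by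
  obtain ⟨Γ, _, _, Λ, _, _, M, c0, c1, c2, h⟩ := H928.exists_TM0 HP hp_re
  have h1 := discrete_of_tm0 M default c0 c1 c2
  have h2 : HP = fun m => (StateTransition.eval (TM0.step M)
      ⟨default, Tape.mk₁ (c0 :: c1 :: List.replicate m c2)⟩).Dom := by
    funext m
    exact propext (h m).symm
  rw [h2]
  exact h1

/-- **The discrete part.** -/
theorem discrete_main : ∃ (N : ℕ) (P : Fin N → Piece) (x₀ y₀ K : ℚ) (B : ℕ), Good P ∧ 2 ≤ B ∧
    ∀ (M : Machine) (w : List ℕ), ∃ x y : ℕ → ℚ, x 0 = x₀ ∧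
      y 0 = y₀ + K / (B : ℚ) ^ (Encodable.encode (M, w)) ∧ IsOrbit P x y ∧
      (Stops P x y ↔ M.HaltsOn w) := by
  obtain ⟨N, P, x₀, y₀, K, B, hP, hB, h⟩ := discrete_hp
  refine ⟨N, P, x₀, y₀, K, B, hP, hB, fun M w => ?_⟩
  obtain ⟨x, y, h1, h2, h3, h4⟩ := h (Encodable.encode (M, w))
  exact ⟨x, y, h1, h2, h3, h4.trans (hp_encode M w)⟩

end Vale.Agent.P113.R2.H796
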