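import Mathlib

/-! # P113: rational piecewise affine systems of the plane -/

namespace Vale.Agent.P113.R2.H796

/-- A rational piece: the rectangle `[x0, x1] × [y0, y1]` with the map
`(x, y) ↦ (a x + b, c y + d)` on it; `stop` marks the pieces which detect halting. -/
structure Piece where
  x0 : ℚ
  x1 : ℚ
  y0 : ℚ
  y1 : ℚ
  a : ℚ
  b : ℚ
  c : ℚ
  d : ℚ
  stop : Bool

namespace Piece

variable (P : Piece)

/-- the image of `x` -/
def mapx (x : ℚ) : ℚ := P.a * x + P.b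

/-- the image of `y` -/
def mapy (y : ℚ) : ℚ := P.c * y + P.d

/-- membership in the rectangle -/
def Mem (x y : ℚ) : Prop := P.x0 ≤ x ∧ x ≤ P.x1 ∧ P.y0 ≤ y ∧ y ≤ P.y1

end Piece

/-- A good system of pieces: positive scalings, everything in `[1/8, 7/8]²`, pairwise disjoint
closed domains and pairwise disjoint closed images. -/
structure Good {N : ℕ} (P : Fin N → Piece) : Prop where
  ha : ∀ i, 0 < (P i).a
  hc : ∀ i, 0 < (P i).c
  hx : ∀ i, 1 / 8 ≤ (P i).x0 ∧ (P i).x0 < (P i).x1 ∧ (P i).x1 ≤ 7 / 8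
  hy : ∀ i, 1 / 8 ≤ (P i).y0 ∧ (P i).y0 < (P i).y1 ∧ (P i).y1 ≤ 7 / 8
  ix : ∀ i, 1 / 8 ≤ (P i).mapx (P i).x0 ∧ (P i).mapx (P i).x1 ≤ 7 / 8
  iy : ∀ i, 1 / 8 ≤ (P i).mapy (P i).y0 ∧ (P i).mapy (P i).y1 ≤ 7 / 8
  dom : ∀ i j, i ≠ j → (P i).x1 < (P j).x0 ∨ (P j).x1 < (P i).x0 ∨
    (P i).y1 < (P j).y0 ∨ (P j).y1 < (P i).y0
  img : ∀ i j, i ≠ j → (P i).mapx (P i).x1 < (P j).mapx (P j).x0 ∨
    (P j).mapx (P j).x1 < (P i).mapx (P i).x0 ∨
    (P i).mapy (P i).y1 < (P j).mapy (P j).y0 ∨ (P j).mapy (P j).y1 < (P i).mapy (P i).y0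

/-- `x, y` is an orbit of the system. -/
def IsOrbit {N : ℕ} (P : Fin N → Piece) (x y : ℕ → ℚ) : Prop :=
  ∀ n, ∃ i, (P i).Mem (x n) (y n) ∧ x (n + 1) = (P i).mapx (x n) ∧ y (n + 1) = (P i).mapy (y n)

/-- The orbit meets a stop piece. -/
def Stops {N : ℕ} (P : Fin N → Piece) (x y : ℕ → ℚ) : Prop :=
  ∃ n i, (P i).stop = true ∧ (P i).Mem (x n) (y n)

/-- The interface between the discrete part and the flow part, for a predicate `p` on `ℕ` (in the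
application `p m` says that the machine and the input with code `m` halt). -/
def Discrete (p : ℕ → Prop) : Prop :=
  ∃ (N : ℕ) (P : Fin N → Piece) (x₀ y₀ K : ℚ) (B : ℕ), Good P ∧ 2 ≤ B ∧
    ∀ m : ℕ, ∃ x y : ℕ → ℚ, x 0 = x₀ ∧ y 0 = y₀ + K / (B : ℚ) ^ m ∧ IsOrbit P x y ∧
      (Stops P x y ↔ p m)

end Vale.Agent.P113.R2.H796
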