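import Mathlib

/-! # P113: base `2 D` coding of digit words by rational numbers -/

namespace Vale.Agent.P113.R2.H796

section Code

variable {δ : Type} (D : ℕ) (num : δ → ℕ)

/-- lower end of the cylinder of a word -/
def lo : List δ → ℚ
  | [] => 0
  | a :: l => (num a + lo l) / (2 * D)

/-- upper end of the cylinder of a word -/
def hi : List δ → ℚ
  | [] => 1 / 2
  | a :: l => (num a + hi l) / (2 * D)

/-- incomparable words -/
def Inc : List δ → List δ → Prop
  | [], _ => False
  | _, [] => False
  | a :: l, b :: m => a ≠ b ∨ Inc l m

variable {D num}

theorem hi_sub_lo (l : List δ) : hi D num l - lo D num l = 1 / 2 / (2 * D) ^ l.length := by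
  induction l with
  | nil => simp [hi, lo]
  | cons a l ih =>
    rw [hi, lo, ← sub_div, add_sub_add_left_eq_sub, ih, List.length_cons, pow_succ, div_div]

variable (hD : ∀ a, num a < D)

include hD

theorem D_pos (a : δ) : (0 : ℚ) < D := by
  have := hD a
  exact_mod_cast (by omega : 0 < D)

theorem lo_nonneg (l : List δ) : 0 ≤ lo D num l := by
  induction l with
  | nil => exact le_rfl
  | cons a l ih => rw [lo]; positivity

theorem hi_le (l : List δ) : hi D num l ≤ 1 / 2 := by
  induction l with
  | nil => exact le_rfl
  | cons a l ih =>
    have h0 := D_pos hD a
    rw [hi, div_le_iff₀ (by positivity)]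
    have : (num a : ℚ) + 1 ≤ D := by exact_mod_cast hD a
    linarith

theorem lo_append (l m : List δ) :
    lo D num (l ++ m) = lo D num l + lo D num m / (2 * D) ^ l.length := by
  induction l with
  | nil => simp [lo]
  | cons a l ih =>
    rw [List.cons_append, lo, ih, lo, List.length_cons, pow_succ, ← div_div]
    ring

theorem lo_le_hi (l : List δ) : lo D num l ≤ hi D num l := by
  have h1 := hi_sub_lo (D := D) (num := num) l
  have : (0 : ℚ) ≤ 1 / 2 / (2 * D) ^ l.length := by positivity
  linarith

theorem lo_lt_hi (l : List δ) (a : δ) : lo D num l < hi D num l := by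
  have h1 := hi_sub_lo (D := D) (num := num) l
  have h0 := D_pos hD a
  have : (0 : ℚ) < 1 / 2 / (2 * D) ^ l.length := by positivity
  linarith

theorem lo_le_half (l : List δ) : lo D num l ≤ 1 / 2 :=
  (lo_le_hi hD l).trans (hi_le hD l)

theorem lo_append_mem (l m : List δ) :
    lo D num l ≤ lo D num (l ++ m) ∧ lo D num (l ++ m) ≤ hi D num l := by
  rw [lo_append hD]
  have h1 := hi_sub_lo (D := D) (num := num) l
  have h2 := lo_nonneg hD m
  have h3 := lo_le_half hD m
  constructor
  · have : 0 ≤ lo D num m / (2 * D) ^ l.length := by positivity
    linarith
  · have : lo D num m / (2 * D) ^ l.length ≤ 1 / 2 / (2 * D) ^ l.length := by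
      gcongr
    linarith

variable (hn : Function.Injective num)

include hn

theorem disj_of_inc {l m : List δ} (h : Inc l m) :
    hi D num l < lo D num m ∨ hi D num m < lo D num l := by
  induction l generalizing m with
  | nil => exact absurd h id
  | cons a l ih =>
    cases m with
    | nil => exact absurd h id
    | cons b m =>
      have h0 := D_pos hD a
      have key : ∀ (a b : δ) (l m : List δ), num a < num b →
          hi D num (a :: l) < lo D num (b :: m) := by
        intro a b l m hab
        rw [hi, lo]
        have h1 : (num a : ℚ) + 1 ≤ num b := by exact_mod_cast hab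
        have h2 := hi_le hD l
        have h3 := lo_nonneg hD m
        apply div_lt_div_of_pos_right _ (by positivity)
        linarith
      by_cases hab : a = b
      · subst hab
        have h' : Inc l m := by
          rcases h with h | h
          · exact absurd rfl h
          · exact h
        rw [hi, lo, hi, lo]
        rcases ih h' with h1 | h1
        · left
          apply div_lt_div_of_pos_right _ (by positivity)
          linarith
        · right
          apply div_lt_div_of_pos_right _ (by positivity)
          linarith
      · rcases lt_or_gt_of_ne (fun h => hab (hn h) : num a ≠ num b) with h1 | h1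
        · exact Or.inl (key _ _ _ _ h1)
        · exact Or.inr (key _ _ _ _ h1)

end Code

end Vale.Agent.P113.R2.H796
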