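import Mathlib

/-! # P113: a reversible two-stack machine simulating a Post-Turing machine -/

namespace Vale.Agent.P113.R2.H796

open Turing StateTransition

/-- control states of the two-stack machine -/
inductive St (Λ : Type) : Type
  | ready (q : Λ) (d : Fin 3)
  | skipR (q : Λ)
  | skipL (q : Λ)
  | drift

/-- stack symbols -/
inductive Sym (Γ Λ : Type) : Type
  | work (a : Γ)
  | junk (q : Λ) (d : Fin 3) (a : Γ)

variable {Γ Λ : Type}

instance [Inhabited Γ] : Inhabited (Sym Γ Λ) := ⟨.work default⟩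

/-- configurations -/
structure Cfg2 (Γ Λ : Type) : Type where
  s : St Λ
  X : List (Sym Γ Λ)
  Y : List (Sym Γ Λ)

section

variable [Inhabited Γ]

/-- the action of the simulated machine at the scanned symbol `a` -/
def act (q : Λ) (d : Fin 3) (a : Γ) (X Y : List (Sym Γ Λ)) :
    Option (Λ × TM0.Stmt Γ) → Cfg2 Γ Λ
  | none => ⟨.drift, .junk q d a :: X, .work a :: Y⟩
  | some (q', .move .right) => ⟨.skipR q', .work a :: X, .junk q d a :: Y⟩
  | some (q', .move .left) => ⟨.skipL q', .junk q d a :: X, .work a :: Y⟩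
  | some (q', .write b) => ⟨.ready q' 2, .junk q d a :: X, .work b :: Y⟩

/-- one step of the two-stack machine -/
def step2 (M : Λ → Γ → Option (Λ × TM0.Stmt Γ)) : Cfg2 Γ Λ → Cfg2 Γ Λ
  | ⟨.ready q d, X, Y⟩ => match Y.headI with
    | .work a => act q d a X Y.tail (M q a)
    | .junk _ _ _ => ⟨.ready q d, X, Y⟩
  | ⟨.skipR q, X, Y⟩ => match Y.headI with
    | .work b => ⟨.ready q 0, X, .work b :: Y.tail⟩
    | .junk p d a => ⟨.skipR q, .junk p d a :: X, Y.tail⟩
  | ⟨.skipL q, X, Y⟩ => match X.headI with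
    | .work b => ⟨.ready q 1, X.tail, .work b :: Y⟩
    | .junk p d a => ⟨.skipL q, X.tail, .junk p d a :: Y⟩
  | ⟨.drift, X, Y⟩ => ⟨.drift, .work default :: X, Y⟩

/-- in a ready state the top of the right stack is a work symbol -/
def Inv2 : Cfg2 Γ Λ → Prop
  | ⟨.ready _ _, _, Y⟩ => ∃ a, Y.headI = .work a
  | _ => True

theorem inv2_step {M : Λ → Γ → Option (Λ × TM0.Stmt Γ)} {c : Cfg2 Γ Λ} (h : Inv2 c) :
    Inv2 (step2 M c) := by
  obtain ⟨s, X, Y⟩ := c
  cases s with
  | ready q d =>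
    obtain ⟨a, ha⟩ := h
    simp only [step2, ha]
    rcases M q a with - | ⟨q', (_ | _) | b⟩
    · trivial
    · trivial
    · trivial
    · exact ⟨b, rfl⟩
  | skipR q =>
    simp only [step2]
    rcases h' : Y.headI with b | ⟨p, d, a⟩
    · exact ⟨b, rfl⟩
    · trivial
  | skipL q =>
    simp only [step2]
    rcases h' : X.headI with b | ⟨p, d, a⟩
    · exact ⟨b, rfl⟩
    · trivial
  | drift => trivial

/-- the work symbols of a stack -/
def LB : List (Sym Γ Λ) → ListBlank Γ
  | [] => ListBlank.mk []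
  | .work a :: l => ListBlank.cons a (LB l)
  | .junk _ _ _ :: l => LB l

@[simp] theorem LB_nil : LB ([] : List (Sym Γ Λ)) = ListBlank.mk [] := rfl
@[simp] theorem LB_work (a : Γ) (l : List (Sym Γ Λ)) :
    LB (.work a :: l) = ListBlank.cons a (LB l) := rfl
@[simp] theorem LB_junk (q : Λ) (d : Fin 3) (a : Γ) (l : List (Sym Γ Λ)) :
    LB (.junk q d a :: l) = LB l := rfl

theorem LB_of_headI {a : Γ} {l : List (Sym Γ Λ)} (h : l.headI = .work a) :
    LB l = ListBlank.cons a (LB l.tail) := by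
  cases l with
  | nil =>
    have : (Sym.work default : Sym Γ Λ) = .work a := h
    injection this with h
    subst h
    exact (ListBlank.cons_head_tail (ListBlank.mk [])).symm
  | cons b l =>
    have : b = .work a := h
    subst this
    rfl

/-- the relation between configurations -/
def Rel (c : TM0.Cfg Γ Λ) [Inhabited Λ] (e : Cfg2 Γ Λ) : Prop :=
  ∃ d, e.s = .ready c.q d ∧ e.Y.headI = .work c.Tape.head ∧ LB e.X = c.Tape.left ∧
    LB e.Y.tail = c.Tape.right

theorem skipR_run (M : Λ → Γ → Option (Λ × TM0.Stmt Γ)) (q : Λ) (X Y : List (Sym Γ Λ)) :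
    ∃ n X' Y', (step2 M)^[n] ⟨.skipR q, X, Y⟩ = ⟨.ready q 0, X', Y'⟩ ∧ LB X' = LB X ∧
      Y'.headI = .work (LB Y).head ∧ LB Y'.tail = (LB Y).tail := by
  induction Y generalizing X with
  | nil => exact ⟨1, X, [.work default], rfl, rfl, rfl, rfl⟩
  | cons s Y ih =>
    cases s with
    | work b => exact ⟨1, X, .work b :: Y, rfl, rfl, by simp, by simp⟩
    | junk p d a =>
      obtain ⟨n, X', Y', h1, h2, h3, h4⟩ := ih (.junk p d a :: X)
      exact ⟨n + 1, X', Y', by rw [Function.iterate_succ_apply]; exact h1, h2, h3, h4⟩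

theorem skipL_run (M : Λ → Γ → Option (Λ × TM0.Stmt Γ)) (q : Λ) (X Y : List (Sym Γ Λ)) :
    ∃ n X' Y', (step2 M)^[n] ⟨.skipL q, X, Y⟩ = ⟨.ready q 1, X', Y'⟩ ∧ LB X' = (LB X).tail ∧
      Y'.headI = .work (LB X).head ∧ LB Y'.tail = LB Y := by
  induction X generalizing Y with
  | nil => exact ⟨1, [], .work default :: Y, rfl, rfl, rfl, rfl⟩
  | cons s X ih =>
    cases s with
    | work b => exact ⟨1, X, .work b :: Y, rfl, by simp, by simp, rfl⟩
    | junk p d a =>
      obtain ⟨n, X', Y', h1, h2, h3, h4⟩ := ih (.junk p d a :: Y)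
      exact ⟨n + 1, X', Y', by rw [Function.iterate_succ_apply]; exact h1, h2, h3, h4⟩

variable [Inhabited Λ]

/-- one step of the simulated machine is simulated by at least one step -/
theorem sim_step (M : TM0.Machine Γ Λ) {c c' : TM0.Cfg Γ Λ} {e : Cfg2 Γ Λ} (h : Rel c e)
    (hc : TM0.step M c = some c') : ∃ n e', 0 < n ∧ (step2 M)^[n] e = e' ∧ Rel c' e' := by
  obtain ⟨s, X, Y⟩ := e
  obtain ⟨q, T⟩ := c
  obtain ⟨d, hs, hY, hX, hR⟩ := h
  simp only at hs hY hX hR
  subst hs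
  have h1 : step2 M ⟨.ready q d, X, Y⟩ = act q d T.head X Y.tail (M q T.head) := by
    simp only [step2, hY]
  simp only [TM0.step, Option.map_eq_some_iff] at hc
  obtain ⟨⟨q', st⟩, hM, rfl⟩ := hc
  rw [hM] at h1
  have hM' : T.1 = T.head := rfl
  rcases st with (_ | _) | b
  · -- left
    obtain ⟨n, X', Y', e1, e2, e3, e4⟩ := skipL_run M q' (.junk q d T.head :: X)
      (.work T.head :: Y.tail)
    refine ⟨n + 1, _, n.succ_pos, rfl, 1, ?_, ?_, ?_, ?_⟩
    all_goals rw [Function.iterate_succ_apply, h1]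
    all_goals simp only [act, e1]
    · rw [e3, LB_junk, hX]; cases T; rfl
    · rw [e2, LB_junk, hX]; cases T; rfl
    · rw [e4, LB_work, hR]; cases T; rfl
  · -- right
    obtain ⟨n, X', Y', e1, e2, e3, e4⟩ := skipR_run M q' (.work T.head :: X)
      (.junk q d T.head :: Y.tail)
    refine ⟨n + 1, _, n.succ_pos, rfl, 0, ?_, ?_, ?_, ?_⟩
    all_goals rw [Function.iterate_succ_apply, h1]
    all_goals simp only [act, e1]
    · rw [e3, LB_junk, hR]; cases T; rfl
    · rw [e2, LB_work, hX]; cases T; rfl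
    · rw [e4, LB_junk, hR]; cases T; rfl
  · refine ⟨1, _, one_pos, rfl, 2, ?_, ?_, ?_, ?_⟩
    all_goals rw [Function.iterate_one, h1]
    · rfl
    · rfl
    · exact hX
    · exact hR

theorem drift_of_halt (M : TM0.Machine Γ Λ) {c : TM0.Cfg Γ Λ} {e : Cfg2 Γ Λ} (h : Rel c e)
    (hc : TM0.step M c = none) : (step2 M e).s = .drift := by
  obtain ⟨s, X, Y⟩ := e
  obtain ⟨q, T⟩ := c
  obtain ⟨d, hs, hY, hX, hR⟩ := h
  simp only at hs hY hX hR
  subst hs
  simp only [TM0.step, Option.map_eq_none_iff] at hc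
  have h1 : step2 M ⟨.ready q d, X, Y⟩ = act q d T.head X Y.tail (M q T.head) := by
    simp only [step2, hY]
  have hc' : M q T.head = none := hc
  rw [h1, hc']
  rfl

theorem drift_iter (M : Λ → Γ → Option (Λ × TM0.Stmt Γ)) {e : Cfg2 Γ Λ} (h : e.s = .drift)
    (n : ℕ) : ((step2 M)^[n] e).s = .drift := by
  induction n with
  | zero => exact h
  | succ n ih =>
    rw [Function.iterate_succ_apply']
    generalize (step2 M)^[n] e = f at ih
    obtain ⟨s, X, Y⟩ := f
    change s = .drift at ih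
    subst ih
    rfl

theorem sim_reaches (M : TM0.Machine Γ Λ) {c c' : TM0.Cfg Γ Λ} {e : Cfg2 Γ Λ} (h : Rel c e)
    (hc : Reaches (TM0.step M) c c') : ∃ n e', (step2 M)^[n] e = e' ∧ Rel c' e' := by
  induction hc with
  | refl => exact ⟨0, e, rfl, h⟩
  | tail _ h1 ih =>
    obtain ⟨n, e', hn, hr⟩ := ih
    obtain ⟨m, e'', _, hm, hr'⟩ := sim_step M hr h1
    exact ⟨m + n, e'', by rw [Function.iterate_add_apply, hn, hm], hr'⟩

/-- if the simulated machine does not halt, there are arbitrarily late ready states -/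
theorem ready_late (M : TM0.Machine Γ Λ) {c : TM0.Cfg Γ Λ} {e : Cfg2 Γ Λ} (h : Rel c e)
    (hc : ¬ (eval (TM0.step M) c).Dom) (k : ℕ) :
    ∃ n c' , k ≤ n ∧ Rel c' ((step2 M)^[n] e) ∧ ¬ (eval (TM0.step M) c').Dom := by
  induction k with
  | zero => exact ⟨0, c, le_rfl, h, hc⟩
  | succ k ih =>
    obtain ⟨n, c', hn, hr, hd⟩ := ih
    rcases hs : TM0.step M c' with - | c''
    · exact absurd (Part.dom_iff_mem.2 ⟨c', mem_eval.2 ⟨.refl, hs⟩⟩) hd
    · obtain ⟨m, e', hm, he, hr'⟩ := sim_step M hr hs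
      refine ⟨m + n, c'', by omega, ?_, ?_⟩
      · rw [Function.iterate_add_apply, he]; exact hr'
      · rwa [reaches_eval (.single hs)] at hd

/-- the two-stack machine drifts if and only if the simulated machine halts -/
theorem drift_iff (M : TM0.Machine Γ Λ) {c : TM0.Cfg Γ Λ} {e : Cfg2 Γ Λ} (h : Rel c e) :
    (∃ n, ((step2 M)^[n] e).s = .drift) ↔ (eval (TM0.step M) c).Dom := by
  constructor
  · rintro ⟨n, hn⟩
    by_contra hd
    obtain ⟨m, c', hm, ⟨d, hr, _⟩, _⟩ := ready_late M h hd n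
    obtain ⟨k, rfl⟩ := Nat.exists_eq_add_of_le hm
    rw [add_comm, Function.iterate_add_apply, drift_iter M hn] at hr
    cases hr
  · intro hd
    obtain ⟨c', hc'⟩ := Part.dom_iff_mem.1 hd
    obtain ⟨h1, h2⟩ := mem_eval.1 hc'
    obtain ⟨n, e', hn, hr⟩ := sim_reaches M h h1
    refine ⟨n + 1, ?_⟩
    rw [Function.iterate_succ_apply', hn]
    exact drift_of_halt M hr h2

omit [Inhabited Λ] in
theorem inv2_iter {M : Λ → Γ → Option (Λ × TM0.Stmt Γ)} {c : Cfg2 Γ Λ} (h : Inv2 c) (n : ℕ) :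
    Inv2 ((step2 M)^[n] c) := by
  induction n with
  | zero => exact h
  | succ n ih => rw [Function.iterate_succ_apply']; exact inv2_step ih

end

end Vale.Agent.P113.R2.H796
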