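import Vale.Agent.P113.R2.H796.Iface
import Vale.Agent.P113.R2.H796.Rev
import Vale.Agent.P113.R2.H796.Cyl

/-! # P113: the two-stack machine as a system of rational pieces -/

namespace Vale.Agent.P113.R2.H796

open Turing StateTransition

deriving instance DecidableEq for St
deriving instance DecidableEq for Sym
deriving instance Fintype for St
deriving instance Fintype for Sym

/-- digits -/
inductive Dig (Γ Λ : Type) : Type
  | st (s : St Λ)
  | sym (c : Sym Γ Λ)
  deriving DecidableEq, Fintype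

/-- the rules of the two-stack machine -/
inductive Rule (Γ Λ : Type) : Type
  | act (q : Λ) (d : Fin 3) (a : Γ)
  | runR (q p : Λ) (d : Fin 3) (a : Γ)
  | endR (q : Λ) (b : Γ)
  | runL (q p : Λ) (d : Fin 3) (a : Γ)
  | endL (q : Λ) (b : Γ)
  | idle
  deriving DecidableEq, Fintype

variable {Γ Λ : Type}

/-- word of the domain, left coordinate -/
def dX : Rule Γ Λ → List (Dig Γ Λ)
  | .act q d _ => [.st (.ready q d)]
  | .runR q _ _ _ => [.st (.skipR q)]
  | .endR q _ => [.st (.skipR q)]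
  | .runL q p d a => [.st (.skipL q), .sym (.junk p d a)]
  | .endL q b => [.st (.skipL q), .sym (.work b)]
  | .idle => [.st .drift]

/-- word of the domain, right coordinate -/
def dY : Rule Γ Λ → List (Dig Γ Λ)
  | .act _ _ a => [.sym (.work a)]
  | .runR _ p d a => [.sym (.junk p d a)]
  | .endR _ b => [.sym (.work b)]
  | _ => []

variable [Inhabited Γ]

/-- words of the image for the main rules -/
def iA (q : Λ) (d : Fin 3) (a : Γ) :
    Option (Λ × TM0.Stmt Γ) → List (Dig Γ Λ) × List (Dig Γ Λ)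
  | none => ([.st .drift, .sym (.junk q d a)], [.sym (.work a)])
  | some (q', .move .right) =>
    ([.st (.skipR q'), .sym (.work a)], [.sym (.junk q d a)])
  | some (q', .move .left) =>
    ([.st (.skipL q'), .sym (.junk q d a)], [.sym (.work a)])
  | some (q', .write b) => ([.st (.ready q' 2), .sym (.junk q d a)], [.sym (.work b)])

/-- words of the image -/
def iXY (M : Λ → Γ → Option (Λ × TM0.Stmt Γ)) : Rule Γ Λ → List (Dig Γ Λ) × List (Dig Γ Λ)
  | .act q d a => iA q d a (M q a)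
  | .runR q p d a => ([.st (.skipR q), .sym (.junk p d a)], [])
  | .endR q b => ([.st (.ready q 0)], [.sym (.work b)])
  | .runL q p d a => ([.st (.skipL q)], [.sym (.junk p d a)])
  | .endL q b => ([.st (.ready q 1)], [.sym (.work b)])
  | .idle => ([.st .drift, .sym (.work default)], [])

omit [Inhabited Γ] in
theorem dom_inc (r s : Rule Γ Λ) (h : r ≠ s) : Inc (dX r) (dX s) ∨ Inc (dY r) (dY s) := by
  cases r <;> cases s <;> simp [dX, dY, Inc] at h ⊢ <;> tauto

theorem img_inc (M : Λ → Γ → Option (Λ × TM0.Stmt Γ)) (r s : Rule Γ Λ) (h : r ≠ s) :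
    Inc (iXY M r).1 (iXY M s).1 ∨ Inc (iXY M r).2 (iXY M s).2 := by
  have key : ∀ (q : Λ) (d : Fin 3) (a : Γ) (o : Option (Λ × TM0.Stmt Γ)) (s : Rule Γ Λ),
      (∀ q d a, s ≠ .act q d a) →
      Inc (iA q d a o).1 (iXY M s).1 ∨ Inc (iA q d a o).2 (iXY M s).2 := by
    intro q d a o s hs
    rcases o with - | ⟨q', (_ | _) | b⟩ <;> rcases s with ⟨q2, d2, a2⟩ | _ | _ | _ | _ | _ <;>
      simp [iXY, iA, Inc] at hs ⊢
  have symm : ∀ l m : List (Dig Γ Λ), Inc l m → Inc m l := by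
    intro l
    induction l with
    | nil => intro m hm; exact hm.elim
    | cons a l ih =>
      intro m hm
      cases m with
      | nil => exact hm.elim
      | cons b m => exact hm.imp Ne.symm (ih m)
  rcases r with ⟨q, d, a⟩ | _ | _ | _ | _ | _
  · rcases s with ⟨q2, d2, a2⟩ | _ | _ | _ | _ | _
    · simp only [iXY]
      have h' : q ≠ q2 ∨ d ≠ d2 ∨ a ≠ a2 := by
        by_contra hc
        push Not at hc
        obtain ⟨rfl, rfl, rfl⟩ := hc
        exact h rfl
      rcases M q a with - | ⟨q', (_ | _) | b⟩ <;>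
        rcases M q2 a2 with - | ⟨q2', (_ | _) | b2⟩ <;> simp [iA, Inc] <;> tauto
    all_goals exact key _ _ _ _ _ (by simp)
  all_goals
    rcases s with ⟨q2, d2, a2⟩ | _ | _ | _ | _ | _
    · exact (key _ _ _ _ _ (by simp)).imp (symm _ _) (symm _ _)
    all_goals simp [iXY, Inc] at h ⊢ <;> tauto

section Num

variable [DecidableEq Γ] [DecidableEq Λ] [Fintype Γ] [Fintype Λ]

variable (Γ Λ) in
/-- number of digits -/
def dnum : ℕ := Fintype.card (Dig Γ Λ) + 1

/-- the number of a digit; the blank has number `0` -/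
noncomputable def num (c : Dig Γ Λ) : ℕ :=
  if c = .sym (.work default) then 0 else (Fintype.equivFin (Dig Γ Λ) c : ℕ) + 1

theorem num_lt (c : Dig Γ Λ) : num c < dnum Γ Λ := by
  unfold num dnum
  split_ifs
  · omega
  · have := (Fintype.equivFin (Dig Γ Λ) c).2
    omega

theorem num_inj : Function.Injective (num : Dig Γ Λ → ℕ) := by
  intro a b h
  unfold num at h
  split_ifs at h with h1 h2 h3
  · rw [h1, h2]
  · exact (Fintype.equivFin (Dig Γ Λ)).injective (Fin.ext (by omega))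

theorem num_blank : num (.sym (.work default) : Dig Γ Λ) = 0 := if_pos rfl

/-- lower end of a cylinder -/
noncomputable abbrev lw (l : List (Dig Γ Λ)) : ℚ := lo (dnum Γ Λ) num l

/-- upper end of a cylinder -/
noncomputable abbrev hg (l : List (Dig Γ Λ)) : ℚ := hi (dnum Γ Λ) num l

theorem lw_norm (l : List (Sym Γ Λ)) :
    lw (l.map Dig.sym) = lw (.sym l.headI :: l.tail.map Dig.sym) := by
  cases l with
  | nil =>
    have : ([] : List (Sym Γ Λ)).headI = .work default := rfl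
    rw [this]
    simp [lw, lo, num_blank]
  | cons a l => rfl

/-- the piece of a rule -/
noncomputable def piece (M : Λ → Γ → Option (Λ × TM0.Stmt Γ)) (r : Rule Γ Λ) : Piece where
  x0 := 1 / 4 + lw (dX r)
  x1 := 1 / 4 + hg (dX r)
  y0 := 1 / 4 + lw (dY r)
  y1 := 1 / 4 + hg (dY r)
  a := (2 * dnum Γ Λ) ^ (dX r).length / (2 * dnum Γ Λ) ^ (iXY M r).1.length
  b := 1 / 4 + lw (iXY M r).1 -
    (2 * dnum Γ Λ) ^ (dX r).length / (2 * dnum Γ Λ) ^ (iXY M r).1.length * (1 / 4 + lw (dX r))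
  c := (2 * dnum Γ Λ) ^ (dY r).length / (2 * dnum Γ Λ) ^ (iXY M r).2.length
  d := 1 / 4 + lw (iXY M r).2 -
    (2 * dnum Γ Λ) ^ (dY r).length / (2 * dnum Γ Λ) ^ (iXY M r).2.length * (1 / 4 + lw (dY r))
  stop := decide (r = .idle)

omit [Inhabited Γ] [DecidableEq Γ] [DecidableEq Λ] in
theorem dnum_pos : (0 : ℚ) < dnum Γ Λ := by
  unfold dnum; positivity

theorem aff_append (l m t : List (Dig Γ Λ)) :
    (2 * dnum Γ Λ : ℚ) ^ l.length / (2 * dnum Γ Λ) ^ m.length * (1 / 4 + lw (l ++ t)) +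
      (1 / 4 + lw m - (2 * dnum Γ Λ) ^ l.length / (2 * dnum Γ Λ) ^ m.length * (1 / 4 + lw l)) =
    1 / 4 + lw (m ++ t) := by
  have h0 : (0 : ℚ) < dnum Γ Λ := dnum_pos
  rw [lw, lw, lw, lw, lo_append num_lt l t, lo_append num_lt m t]
  field_simp
  ring

theorem aff_hi (l m : List (Dig Γ Λ)) :
    (2 * dnum Γ Λ : ℚ) ^ l.length / (2 * dnum Γ Λ) ^ m.length * (1 / 4 + hg l) +
      (1 / 4 + lw m - (2 * dnum Γ Λ) ^ l.length / (2 * dnum Γ Λ) ^ m.length * (1 / 4 + lw l)) =
    1 / 4 + hg m := by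
  have h0 : (0 : ℚ) < dnum Γ Λ := dnum_pos
  have h1 : hg l = lw l + 1 / 2 / (2 * dnum Γ Λ) ^ l.length := by
    rw [← hi_sub_lo]; ring
  have h2 : hg m = lw m + 1 / 2 / (2 * dnum Γ Λ) ^ m.length := by
    rw [← hi_sub_lo]; ring
  rw [h1, h2]
  field_simp
  ring

theorem aff_lo (l m : List (Dig Γ Λ)) :
    (2 * dnum Γ Λ : ℚ) ^ l.length / (2 * dnum Γ Λ) ^ m.length * (1 / 4 + lw l) +
      (1 / 4 + lw m - (2 * dnum Γ Λ) ^ l.length / (2 * dnum Γ Λ) ^ m.length * (1 / 4 + lw l)) =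
    1 / 4 + lw m := by
  ring

theorem piece_x0 (M : Λ → Γ → Option (Λ × TM0.Stmt Γ)) (r : Rule Γ Λ) :
    (piece M r).mapx (piece M r).x0 = 1 / 4 + lw (iXY M r).1 := aff_lo _ _

theorem piece_x1 (M : Λ → Γ → Option (Λ × TM0.Stmt Γ)) (r : Rule Γ Λ) :
    (piece M r).mapx (piece M r).x1 = 1 / 4 + hg (iXY M r).1 := aff_hi _ _

theorem piece_y0 (M : Λ → Γ → Option (Λ × TM0.Stmt Γ)) (r : Rule Γ Λ) :
    (piece M r).mapy (piece M r).y0 = 1 / 4 + lw (iXY M r).2 := aff_lo _ _

theorem piece_y1 (M : Λ → Γ → Option (Λ × TM0.Stmt Γ)) (r : Rule Γ Λ) :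
    (piece M r).mapy (piece M r).y1 = 1 / 4 + hg (iXY M r).2 := aff_hi _ _

theorem bounds (l : List (Dig Γ Λ)) : 0 ≤ lw l ∧ lw l < hg l ∧ hg l ≤ 1 / 2 :=
  ⟨lo_nonneg num_lt l, lo_lt_hi num_lt l (.st .drift), hi_le num_lt l⟩

theorem disj_word {l m : List (Dig Γ Λ)} (h : Inc l m) : hg l < lw m ∨ hg m < lw l :=
  disj_of_inc num_lt num_inj h

theorem good_piece (M : Λ → Γ → Option (Λ × TM0.Stmt Γ)) {N : ℕ} (e : Fin N ≃ Rule Γ Λ) :
    Good (fun i => piece M (e i)) where
  ha i := by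
    have h0 : (0 : ℚ) < dnum Γ Λ := dnum_pos
    change 0 < (2 * dnum Γ Λ : ℚ) ^ _ / (2 * dnum Γ Λ) ^ _
    positivity
  hc i := by
    have h0 : (0 : ℚ) < dnum Γ Λ := dnum_pos
    change 0 < (2 * dnum Γ Λ : ℚ) ^ _ / (2 * dnum Γ Λ) ^ _
    positivity
  hx i := by
    have h := bounds (dX (e i))
    change 1 / 8 ≤ 1 / 4 + lw (dX (e i)) ∧ 1 / 4 + lw (dX (e i)) < 1 / 4 + hg (dX (e i)) ∧
      1 / 4 + hg (dX (e i)) ≤ 7 / 8
    refine ⟨?_, ?_, ?_⟩ <;> linarith
  hy i := by
    have h := bounds (dY (e i))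
    change 1 / 8 ≤ 1 / 4 + lw (dY (e i)) ∧ 1 / 4 + lw (dY (e i)) < 1 / 4 + hg (dY (e i)) ∧
      1 / 4 + hg (dY (e i)) ≤ 7 / 8
    refine ⟨?_, ?_, ?_⟩ <;> linarith
  ix i := by
    rw [piece_x0, piece_x1]
    have h := bounds (iXY M (e i)).1
    constructor <;> linarith
  iy i := by
    rw [piece_y0, piece_y1]
    have h := bounds (iXY M (e i)).2
    constructor <;> linarith
  dom i j hij := by
    change 1 / 4 + hg (dX (e i)) < 1 / 4 + lw (dX (e j)) ∨
      1 / 4 + hg (dX (e j)) < 1 / 4 + lw (dX (e i)) ∨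
      1 / 4 + hg (dY (e i)) < 1 / 4 + lw (dY (e j)) ∨
      1 / 4 + hg (dY (e j)) < 1 / 4 + lw (dY (e i))
    simp only [add_lt_add_iff_left]
    rcases dom_inc (e i) (e j) (fun h => hij (e.injective h)) with h | h
    · rcases disj_word h with h | h
      · exact Or.inl h
      · exact Or.inr (Or.inl h)
    · rcases disj_word h with h | h
      · exact Or.inr (Or.inr (Or.inl h))
      · exact Or.inr (Or.inr (Or.inr h))
  img i j hij := by
    simp only [piece_x0, piece_x1, piece_y0, piece_y1, add_lt_add_iff_left]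
    rcases img_inc M (e i) (e j) (fun h => hij (e.injective h)) with h | h
    · rcases disj_word h with h | h
      · exact Or.inl h
      · exact Or.inr (Or.inl h)
    · rcases disj_word h with h | h
      · exact Or.inr (Or.inr (Or.inl h))
      · exact Or.inr (Or.inr (Or.inr h))

/-- the left coordinate of a configuration -/
noncomputable def xOf (c : Cfg2 Γ Λ) : ℚ := 1 / 4 + lw (.st c.s :: c.X.map Dig.sym)

/-- the right coordinate of a configuration -/
noncomputable def yOf (c : Cfg2 Γ Λ) : ℚ := 1 / 4 + lw (c.Y.map Dig.sym)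

theorem piece_word {M : Λ → Γ → Option (Λ × TM0.Stmt Γ)} (r : Rule Γ Λ)
    (X Y : List (Dig Γ Λ)) {x y x' y' : ℚ} (hx : x = 1 / 4 + lw (dX r ++ X))
    (hy : y = 1 / 4 + lw (dY r ++ Y)) (hx' : x' = 1 / 4 + lw ((iXY M r).1 ++ X))
    (hy' : y' = 1 / 4 + lw ((iXY M r).2 ++ Y)) :
    (piece M r).Mem x y ∧ x' = (piece M r).mapx x ∧ y' = (piece M r).mapy y := by
  refine ⟨⟨?_, ?_, ?_, ?_⟩, ?_, ?_⟩
  · rw [hx]; exact add_le_add le_rfl (lo_append_mem num_lt _ _).1
  · rw [hx]; exact add_le_add le_rfl (lo_append_mem num_lt _ _).2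
  · rw [hy]; exact add_le_add le_rfl (lo_append_mem num_lt _ _).1
  · rw [hy]; exact add_le_add le_rfl (lo_append_mem num_lt _ _).2
  · rw [hx, hx']; exact (aff_append _ _ _).symm
  · rw [hy, hy']; exact (aff_append _ _ _).symm

theorem orbit_step (M : Λ → Γ → Option (Λ × TM0.Stmt Γ)) (c : Cfg2 Γ Λ) (hc : Inv2 c) :
    ∃ r, (piece M r).Mem (xOf c) (yOf c) ∧ xOf (step2 M c) = (piece M r).mapx (xOf c) ∧
      yOf (step2 M c) = (piece M r).mapy (yOf c) := by
  obtain ⟨s, X, Y⟩ := c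
  cases s with
  | ready q d =>
    obtain ⟨a, ha⟩ := hc
    have hstep : step2 M ⟨.ready q d, X, Y⟩ = act q d a X Y.tail (M q a) := by
      simp only [step2, ha]
    refine ⟨.act q d a, piece_word _ (X.map Dig.sym) (Y.tail.map Dig.sym) rfl ?_ ?_ ?_⟩
    · rw [yOf, lw_norm, ha]; rfl
    · rw [hstep]
      simp only [iXY]
      rcases M q a with - | ⟨q', (_ | _) | b⟩ <;> rfl
    · rw [hstep]
      simp only [iXY]
      rcases M q a with - | ⟨q', (_ | _) | b⟩ <;> rfl
  | skipR q =>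
    rcases h' : Y.headI with b | ⟨p, d, a⟩
    · have hstep : step2 M ⟨.skipR q, X, Y⟩ = ⟨.ready q 0, X, .work b :: Y.tail⟩ := by
        simp only [step2, h']
      refine ⟨.endR q b, piece_word _ (X.map Dig.sym) (Y.tail.map Dig.sym) rfl ?_ ?_ ?_⟩
      · rw [yOf, lw_norm, h']; rfl
      · rw [hstep]; rfl
      · rw [hstep]; rfl
    · have hstep : step2 M ⟨.skipR q, X, Y⟩ = ⟨.skipR q, .junk p d a :: X, Y.tail⟩ := by
        simp only [step2, h']
      refine ⟨.runR q p d a, piece_word _ (X.map Dig.sym) (Y.tail.map Dig.sym) rfl ?_ ?_ ?_⟩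
      · rw [yOf, lw_norm, h']; rfl
      · rw [hstep]; rfl
      · rw [hstep]; rfl
  | skipL q =>
    have hx : xOf (⟨.skipL q, X, Y⟩ : Cfg2 Γ Λ) =
        1 / 4 + lw (.st (.skipL q) :: .sym X.headI :: X.tail.map Dig.sym) := by
      have h1 := lw_norm X
      simp only [lw] at h1
      simp only [xOf, lw, lo] at h1 ⊢
      rw [h1]
    rcases h' : X.headI with b | ⟨p, d, a⟩
    · have hstep : step2 M ⟨.skipL q, X, Y⟩ = ⟨.ready q 1, X.tail, .work b :: Y⟩ := by
        simp only [step2, h']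
      refine ⟨.endL q b, piece_word _ (X.tail.map Dig.sym) (Y.map Dig.sym) ?_ rfl ?_ ?_⟩
      · rw [hx, h']; rfl
      · rw [hstep]; rfl
      · rw [hstep]; rfl
    · have hstep : step2 M ⟨.skipL q, X, Y⟩ = ⟨.skipL q, X.tail, .junk p d a :: Y⟩ := by
        simp only [step2, h']
      refine ⟨.runL q p d a, piece_word _ (X.tail.map Dig.sym) (Y.map Dig.sym) ?_ rfl ?_ ?_⟩
      · rw [hx, h']; rfl
      · rw [hstep]; rfl
      · rw [hstep]; rfl
  | drift =>
    exact ⟨.idle, piece_word _ (X.map Dig.sym) (Y.map Dig.sym) rfl rfl rfl rfl⟩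

theorem idle_mem (M : Λ → Γ → Option (Λ × TM0.Stmt Γ)) (c : Cfg2 Γ Λ) :
    (piece M .idle).Mem (xOf c) (yOf c) ↔ c.s = .drift := by
  constructor
  · rintro ⟨h1, h2, -, -⟩
    by_contra hs
    have hinc : Inc ([.st c.s] : List (Dig Γ Λ)) [.st .drift] := Or.inl (by simpa using hs)
    have h3 := (lo_append_mem num_lt [.st c.s] (c.X.map Dig.sym))
    have h4 : 1 / 4 + lw [.st .drift] ≤ 1 / 4 + lw ([.st c.s] ++ c.X.map Dig.sym) := h1
    have h5 : 1 / 4 + lw ([.st c.s] ++ c.X.map Dig.sym) ≤ 1 / 4 + hg [.st .drift] := h2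
    simp only [lw, hg] at h4 h5
    rcases disj_word hinc with h | h
    · simp only [lw, hg] at h
      linarith
    · simp only [lw, hg] at h
      linarith
  · intro h
    obtain ⟨s, X, Y⟩ := c
    simp only at h
    subst h
    exact (piece_word (M := M) .idle (X.map Dig.sym) (Y.map Dig.sym) rfl rfl rfl rfl).1

end Num

theorem LB_map_work (l : List Γ) : LB (l.map (Sym.work : Γ → Sym Γ Λ)) = ListBlank.mk l := by
  induction l with
  | nil => rfl
  | cons a l ih => rw [List.map_cons, LB_work, ih]; rfl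

theorem lo_replicate {δ : Type} (D : ℕ) (hD : 0 < D) (num : δ → ℕ) (c : δ) (m : ℕ) :
    lo D num (List.replicate m c) =
      num c / (2 * D - 1) - num c / (2 * D - 1) / (2 * D) ^ m := by
  have h1 : (1 : ℚ) ≤ D := by exact_mod_cast hD
  have h2 : (2 * D - 1 : ℚ) ≠ 0 := by
    have : (0 : ℚ) < 2 * D - 1 := by linarith
    exact this.ne'
  induction m with
  | zero => simp [lo]
  | succ m ih =>
    rw [List.replicate_succ, lo, ih]
    field_simp
    ring

/-- A Post-Turing machine with finitely many states and symbols, started on the tapes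
`c0 c1 c2 ⋯ c2`, is simulated by a good system of rational pieces. -/
theorem discrete_of_tm0 [Fintype Γ] [Inhabited Λ] [Fintype Λ] (M : TM0.Machine Γ Λ) (q₀ : Λ)
    (c0 c1 c2 : Γ) :
    Discrete fun m =>
      (eval (TM0.step M) ⟨q₀, Tape.mk₁ (c0 :: c1 :: List.replicate m c2)⟩).Dom := by
  classical
  let e : Fin (Fintype.card (Rule Γ Λ)) ≃ Rule Γ Λ := (Fintype.equivFin _).symm
  let D : ℕ := dnum Γ Λ
  have hD : 0 < D := Nat.succ_pos _
  have hDq : (0 : ℚ) < D := by exact_mod_cast hD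
  let n0 : ℕ := num (.sym (.work c0) : Dig Γ Λ)
  let n1 : ℕ := num (.sym (.work c1) : Dig Γ Λ)
  let n2 : ℕ := num (.sym (.work c2) : Dig Γ Λ)
  let e0 : ℕ → Cfg2 Γ Λ := fun m =>
    ⟨.ready q₀ 0, [], (c0 :: c1 :: List.replicate m c2).map Sym.work⟩
  have hinv : ∀ m, Inv2 (e0 m) := fun m => ⟨c0, rfl⟩
  have hrel : ∀ m, Rel (⟨q₀, Tape.mk₁ (c0 :: c1 :: List.replicate m c2)⟩ : TM0.Cfg Γ Λ)
      (e0 m) := by
    intro m
    refine ⟨0, rfl, rfl, rfl, ?_⟩
    exact LB_map_work (c1 :: List.replicate m c2)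
  refine ⟨_, fun i => piece M (e i), 1 / 4 + lw ([.st (.ready q₀ 0)] : List (Dig Γ Λ)),
    1 / 4 + (n0 + (n1 + n2 / (2 * D - 1)) / (2 * D)) / (2 * D),
    -(n2 / (2 * D - 1) / (2 * D) / (2 * D)), 2 * D, good_piece M e, by omega, fun m => ?_⟩
  refine ⟨fun n => xOf ((step2 M)^[n] (e0 m)), fun n => yOf ((step2 M)^[n] (e0 m)), rfl, ?_,
    ?_, ?_⟩
  · change 1 / 4 + lw (((c0 :: c1 :: List.replicate m c2).map Sym.work).map Dig.sym) = _
    simp only [List.map_cons, List.map_replicate]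
    rw [lw, lo, lo, lo_replicate (dnum Γ Λ) hD]
    change 1 / 4 + ((n0 : ℚ) + ((n1 : ℚ) +
      (n2 / (2 * D - 1) - n2 / (2 * D - 1) / (2 * D) ^ m)) / (2 * D)) / (2 * D) = _
    push_cast
    have h2 : (2 * D - 1 : ℚ) ≠ 0 := by
      have h1 : (1 : ℚ) ≤ D := by exact_mod_cast hD
      have : (0 : ℚ) < 2 * D - 1 := by linarith
      exact this.ne'
    field_simp
    ring
  · intro n
    obtain ⟨r, h1, h2, h3⟩ := orbit_step M _ (inv2_iter (M := M) (hinv m) n)
    refine ⟨e.symm r, ?_⟩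
    simp only [Equiv.apply_symm_apply, Function.iterate_succ_apply']
    exact ⟨h1, h2, h3⟩
  · refine Iff.trans ?_ (drift_iff M (hrel m))
    constructor
    · rintro ⟨n, i, hs, hm⟩
      have hi : e i = .idle := of_decide_eq_true hs
      simp only [hi] at hm
      exact ⟨n, (idle_mem M _).1 hm⟩
    · rintro ⟨n, hn⟩
      refine ⟨n, e.symm .idle, ?_, ?_⟩
      · simp only [Equiv.apply_symm_apply]
        change decide ((Rule.idle : Rule Γ Λ) = .idle) = true
        simp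
      · simp only [Equiv.apply_symm_apply]
        exact (idle_mem M _).2 hn

end Vale.Agent.P113.R2.H796
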